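import Vale.Agent.P157.Parisi.Sphere.Cont.State

/-!
Fresh patterns in asymptotic cascades: means and log-weights converge to the tree values.
-/

noncomputable section

open MeasureTheory ProbabilityTheory Filter Finset
open scoped BigOperators Topology

namespace Vale.Agent.P157.Parisi.Sphere.Cont

open Vale.Agent.P157.Parisi.Cont (restrM wC wt hw psi one_le_wC continuous_hw abs_hw_le prodΘ
  exists_gramFun tendsto_of_series exists_bound exists_psi_bound continuous_psi tailW coefW
  tendsto_tailW gq gq_mem abs_treePat_sub_series_le abs_patValue_sub_series_le)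

/-- Continuity of fresh-pattern means. -/
theorem contS (hT : TiltFactorStmt) (hTS : TreeShapeStmt) : ContS := by
  intro A f hf N P S ξ hN hS hAp k n F o hF ho
  rcases n with _ | n
  · obtain rfl : k = 0 := by
      by_contra hk
      exact (o ⟨0, Nat.pos_of_ne_zero hk⟩).a.elim0
    refine (hAp 0 F hF).congr fun j => ?_
    simp [State.patMean, State.repMean, Path.treePat, Path.treeExp]
  obtain ⟨K, hK⟩ := exists_bound F hF
  obtain ⟨B, hB, hψ⟩ := exists_psi_bound hf ho
  have hc : ∀ d l, Continuous
      (Fin.append (Parisi.Cont.psi f B o) (fun _ : Fin d => (hw f A : (Fin k → ℝ) → ℝ)) l) := fun d l => by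
    induction l using Fin.addCases <;> simp [continuous_psi hf ho B, continuous_hw hf]
  have hb : ∀ d l x,
      |Fin.append (Parisi.Cont.psi f B o) (fun _ : Fin d => (hw f A : (Fin k → ℝ) → ℝ)) l x| ≤ 1 := fun d l x => by
    induction l using Fin.addCases <;> simp [hψ, abs_hw_le hf]
  choose Φ hΦc hΦ using fun d : ℕ => exists_gramFun
    (Θ := prodΘ (Fin.append (Parisi.Cont.psi f B o) fun _ : Fin d => (hw f A : (Fin k → ℝ) → ℝ))) (K := 1)
    (continuous_finsetProd _ fun a _ => (hc d a).comp (by fun_prop))
    (fun x => by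
      unfold prodΘ; rw [abs_prod]
      exact prod_le_one (fun a _ => abs_nonneg _) fun a _ => hb d a _)
  refine tendsto_of_series (e := fun D => B ^ (n + 1) * (K * tailW (wC A k) n D))
    (fun D j => abs_patMean_sub_series_le (hS j) (hN j) hf hK ho hB hψ
      (fun d v hv => hΦ d v hv) D)
    (fun D j => abs_treePat_sub_series_le hT hTS hf (ξ j) hK ho hB hψ
      (fun d _ _ v hv => hΦ d v hv) D) (fun D => ?_) ?_
  · simp only [← mul_sub, ← sum_sub_distrib]
    rw [← mul_zero (B ^ (n + 1))]
    refine Tendsto.const_mul _ ?_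
    rw [← sum_const_zero (s := range D)]
    refine tendsto_finsetSum _ fun d _ => ?_
    rw [← mul_zero (coefW (wC A k) n d)]
    refine Tendsto.const_mul _ (hAp (n + 1 + d) (fun O => F (restrM O) * Φ d O) ?_)
    exact (hF.comp (by unfold restrM; fun_prop)).mul (hΦc d)
  · simpa using ((tendsto_tailW (one_le_wC hf k) n).const_mul K).const_mul (B ^ (n + 1))

/-- Continuity of the log-weight of fresh patterns. -/
theorem logS (hBr : BridgeStmt) : LogS := by
  intro A f hf N P S ξ hN hS hAp k
  choose Φ hΦc hΦ using fun d : ℕ => exists_gramFun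
    (Θ := prodΘ fun _ : Fin (d + 1) => (hw f A : (Fin k → ℝ) → ℝ)) (K := 1)
    (continuous_finsetProd _ fun a _ => (continuous_hw hf).comp (by fun_prop))
    (fun x => by
      unfold prodΘ; rw [abs_prod]
      exact prod_le_one (fun a _ => abs_nonneg _) fun a _ => abs_hw_le hf _)
  obtain ⟨hq0, hq1⟩ := gq_mem (one_le_wC hf k)
  refine tendsto_of_series (e := fun D => gq (wC A k) ^ (D + 1) / (1 - gq (wC A k)))
    (fun D j => abs_logMean_sub_series_le (hS j) (hN j) hf (fun d v hv => hΦ d v hv) D)
    (fun D j => abs_patValue_sub_series_le hBr hf (ξ j) (fun d _ _ v hv => hΦ d v hv) D)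
    (fun D => ?_) ?_
  · simp only [sub_sub_sub_cancel_left, ← sum_sub_distrib, ← sub_div]
    rw [← sum_const_zero (s := range D)]
    refine tendsto_finsetSum _ fun d _ => ?_
    have h := ((hAp (d + 1) (Φ d) (hΦc d)).neg).div_const ((d : ℝ) + 1)
    simpa [neg_sub] using h
  · have h := ((tendsto_pow_atTop_nhds_zero_of_lt_one hq0 hq1).comp
      (tendsto_add_atTop_nat 1)).div_const (1 - gq (wC A k))
    simpa using h

end Vale.Agent.P157.Parisi.Sphere.Cont
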