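import Vale.Agent.P157.Parisi.Sphere.Statements
import Vale.Agent.P157.Parisi.Cont.Main
import Vale.Agent.P157.Parisi.Sphere.TreeApprox.Sample

/-!
Fresh-pattern means of a state as series of replica means.
-/

noncomputable section

open MeasureTheory ProbabilityTheory Filter Finset
open scoped BigOperators Topology

namespace Vale.Agent.P157.Parisi.Sphere.Cont

open Vale.Agent.P157.Parisi.Cont (restrM wC wt hw fac psi one_le_wC wt_mem continuous_wt abs_wt_le
  continuous_hw hw_mem abs_hw_le sum_mul_pow prodΘ expVal gramOf gq coefW tailW gq_mem one_sub_div_mem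
  series_bound integrable_bdd continuous_psi prod_psi)

variable {f : ℝ → ℝ} {A : ℝ} {N k n M : ℕ} {pts : Pts N}

/-- The fields of a configuration. -/
def fld (g : Fin k → Fin N → ℝ) (σ : Conf pts) : Fin k → ℝ := fun j => dot (g j) (unitVec σ)

lemma continuous_fld (σ : Conf pts) :
    Continuous fun g : Fin k → Fin N → ℝ => fld g σ := by
  unfold fld dot; fun_prop

lemma gramOf_unitVec (σ : Fin M → Conf pts) :
    gramOf (fun l => unitVec (σ l)) = overlaps σ := rfl

lemma overlaps_self (hN : 0 < N) (σ : Fin M → Conf pts) (a : Fin M) : overlaps σ a a = 1 := by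
  rw [← pts.norm_one hN (σ a)]
  show ∑ i, unitVec (σ a) i * unitVec (σ a) i = ∑ i, unitVec (σ a) i ^ 2
  exact sum_congr rfl fun i _ => (sq (unitVec (σ a) i)).symm

lemma abs_overlaps_le (σ : Fin M → Conf pts) (a b : Fin M) : |overlaps σ a b| ≤ 1 :=
  TreeApprox.abs_overlap_le _ _

variable (S : State pts)

/-- The joint law of the disorder and the patterns. -/
def jointLaw (k : ℕ) : Measure (S.Ω × (Fin k → Fin N → ℝ)) :=
  S.law.prod (Measure.pi fun _ => gam (Fin N))

variable {S} (hS : S.IsGood)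
include hS

lemma w_sum_bound {W : Conf pts → ℝ} {C : ℝ} (hW : ∀ σ, C⁻¹ ≤ W σ ∧ W σ ≤ C) (ω : S.Ω) :
    C⁻¹ ≤ ∑ σ, S.w ω σ * W σ ∧ ∑ σ, S.w ω σ * W σ ≤ C := by
  constructor
  · calc C⁻¹ = ∑ σ, S.w ω σ * C⁻¹ := by rw [← sum_mul, hS.sum_one ω, one_mul]
      _ ≤ _ := sum_le_sum fun σ _ => mul_le_mul_of_nonneg_left (hW σ).1 (hS.nonneg ω σ)
  · calc ∑ σ, S.w ω σ * W σ ≤ ∑ σ, S.w ω σ * C :=
        sum_le_sum fun σ _ => mul_le_mul_of_nonneg_left (hW σ).2 (hS.nonneg ω σ)
      _ = C := by rw [← sum_mul, hS.sum_one ω, one_mul]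

lemma abs_w_sum_le {Q : (Fin n → Conf pts) → ℝ} {K : ℝ} (hQ : ∀ σ, |Q σ| ≤ K) (ω : S.Ω) :
    |∑ σ : Fin n → Conf pts, (∏ l, S.w ω (σ l)) * Q σ| ≤ K := by
  have hp : ∑ σ : Fin n → Conf pts, ∏ l, S.w ω (σ l) = 1 := by
    rw [← Fintype.sum_pow, hS.sum_one ω, one_pow]
  calc |∑ σ : Fin n → Conf pts, (∏ l, S.w ω (σ l)) * Q σ|
      ≤ ∑ σ : Fin n → Conf pts, (∏ l, S.w ω (σ l)) * K :=
        (abs_sum_le_sum_abs _ _).trans (sum_le_sum fun σ _ => by
          have h0 : 0 ≤ ∏ l, S.w ω (σ l) := prod_nonneg fun l _ => hS.nonneg ω _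
          rw [abs_mul, abs_of_nonneg h0]
          exact mul_le_mul_of_nonneg_left (hQ σ) h0)
    _ = K := by rw [← sum_mul, hp, one_mul]

lemma measurable_mix {Ψ : Fin M → (Fin k → ℝ) → ℝ} (hΨ : ∀ l, Continuous (Ψ l))
    (Q : (Fin M → Conf pts) → ℝ) :
    Measurable fun z : S.Ω × (Fin k → Fin N → ℝ) =>
      ∑ σ : Fin M → Conf pts, (∏ l, S.w z.1 (σ l)) * (Q σ * ∏ l, Ψ l (fld z.2 (σ l))) :=
  Finset.measurable_sum _ fun σ _ =>
    (Finset.measurable_prod _ fun l _ => (hS.meas (σ l)).comp measurable_fst).mul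
      (((continuous_finsetProd _ fun l _ =>
        (hΨ l).comp (continuous_fld (σ l))).measurable.comp measurable_snd).const_mul _)

lemma measurable_wsum {W : (Fin k → ℝ) → ℝ} (hW : Continuous W) :
    Measurable fun z : S.Ω × (Fin k → Fin N → ℝ) => ∑ σ, S.w z.1 σ * W (fld z.2 σ) :=
  Finset.measurable_sum _ fun σ _ => ((hS.meas σ).comp measurable_fst).mul
    ((hW.comp (continuous_fld σ)).measurable.comp measurable_snd)

/-- Fresh patterns averaged out at fixed replicas. -/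
lemma integral_mix (hN : 0 < N) {Ψ : Fin M → (Fin k → ℝ) → ℝ} (hΨ : ∀ l, Continuous (Ψ l))
    (hb : ∀ l x, |Ψ l x| ≤ 1) (Q : (Fin M → Conf pts) → ℝ) {Φ : (Fin M → Fin M → ℝ) → ℝ}
    (hΦ : ∀ v : Fin M → Fin N → ℝ, (∀ a, dot (v a) (v a) ≤ 1) →
      Φ (gramOf v) = expVal (prodΘ Ψ) v) :
    ∫ z, (∑ σ : Fin M → Conf pts, (∏ l, S.w z.1 (σ l)) * (Q σ * ∏ l, Ψ l (fld z.2 (σ l))))
        ∂jointLaw S k = S.repMean M fun σ => Q σ * Φ (overlaps σ) := by
  have := hS.prob
  obtain ⟨K, hK⟩ : ∃ K, ∀ σ : Fin M → Conf pts, |Q σ| ≤ K :=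
    ⟨∑ σ, |Q σ|, fun σ => single_le_sum (f := fun σ => |Q σ|) (fun _ _ => abs_nonneg _)
      (mem_univ σ)⟩
  have hKb : ∀ (g : Fin k → Fin N → ℝ) (σ : Fin M → Conf pts),
      |Q σ * ∏ l, Ψ l (fld g (σ l))| ≤ K := fun g σ => by
    rw [abs_mul, abs_prod]
    exact (mul_le_of_le_one_right (abs_nonneg _)
      (prod_le_one (fun l _ => abs_nonneg _) fun l _ => hb l _)).trans (hK σ)
  rw [jointLaw, integral_prod _ (integrable_bdd (measurable_mix hS hΨ Q) (K := K) fun z =>
    abs_w_sum_le hS (hKb z.2) z.1)]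
  refine integral_congr_ae (Eventually.of_forall fun ω => ?_)
  beta_reduce
  have hi : ∀ σ : Fin M → Conf pts, Integrable (fun g : Fin k → Fin N → ℝ =>
      (∏ l, S.w ω (σ l)) * (Q σ * ∏ l, Ψ l (fld g (σ l)))) (Measure.pi fun _ => gam (Fin N)) :=
    fun σ => by
      have hc : Continuous fun g : Fin k → Fin N → ℝ => Q σ * ∏ l, Ψ l (fld g (σ l)) :=
        continuous_const.mul (continuous_finsetProd _ fun l _ =>
          (hΨ l).comp (continuous_fld (σ l)))
      exact (integrable_bdd hc.measurable fun g => hKb g σ).const_mul _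
  rw [integral_finsetSum _ fun σ _ => hi σ]
  refine sum_congr rfl fun σ _ => ?_
  rw [integral_const_mul, integral_const_mul, ← gramOf_unitVec σ, hΦ _ fun a => ?_]
  · rfl
  · exact (congrFun (congrFun (gramOf_unitVec σ) a) a).trans_le (overlaps_self hN σ a).le

/-- Fresh-pattern means as series of replica means. -/
theorem abs_patMean_sub_series_le (hN : 0 < N) (hf : Smooth f A) {F : (Fin (n + 1) → Fin (n + 1) → ℝ) → ℝ}
    {K : ℝ} (hK : ∀ O, (∀ a b, |O a b| ≤ 1) → |F O| ≤ K) {o : Fin k → Obs (n + 1)}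
    (ho : ∀ j, (o j).Good) {B : ℝ} (hB : 0 < B) (hψ : ∀ l x, |Parisi.Cont.psi f B o l x| ≤ 1)
    {Φ : ∀ d, (Fin (n + 1 + d) → Fin (n + 1 + d) → ℝ) → ℝ}
    (hΦ : ∀ d (v : Fin (n + 1 + d) → Fin N → ℝ), (∀ a, dot (v a) (v a) ≤ 1) →
      Φ d (gramOf v) = expVal (prodΘ (Fin.append (Parisi.Cont.psi f B o) fun _ : Fin d => hw f A)) v)
    (D : ℕ) :
    |S.patMean f F o - B ^ (n + 1) * ∑ d ∈ range D, coefW (wC A k) n d *
        S.repMean (n + 1 + d) (fun σ => F (restrM (overlaps σ)) * Φ d (overlaps σ))| ≤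
      B ^ (n + 1) * (K * tailW (wC A k) n D) := by
  have := hS.prob
  have hC := one_le_wC hf k
  have hψc := continuous_psi hf ho B
  have hχc : ∀ d l, Continuous (Fin.append (Parisi.Cont.psi f B o) (fun _ : Fin d => hw f A) l) := fun d l => by
    induction l using Fin.addCases <;> simp [hψc, continuous_hw hf]
  have hχb : ∀ d l x, |Fin.append (Parisi.Cont.psi f B o) (fun _ : Fin d => hw f A) l x| ≤ 1 := fun d l x => by
    induction l using Fin.addCases <;> simp [hψ, abs_hw_le hf]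
  set P : S.Ω × (Fin k → Fin N → ℝ) → ℝ := fun z => ∑ σ : Fin (n + 1) → Conf pts,
    (∏ l, S.w z.1 (σ l)) * (F (overlaps σ) * ∏ l, Parisi.Cont.psi f B o l (fld z.2 (σ l))) with hP
  set Z : S.Ω × (Fin k → Fin N → ℝ) → ℝ := fun z => ∑ σ, S.w z.1 σ * wt f (fld z.2 σ) with hZ
  have hZm : ∀ z, (wC A k)⁻¹ ≤ Z z ∧ Z z ≤ wC A k := fun z =>
    w_sum_bound hS (fun σ => wt_mem hf (fld z.2 σ)) z.1
  have hPb : ∀ z, |P z| ≤ K := fun z => abs_w_sum_le hS (fun σ => by
    rw [abs_mul, abs_prod]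
    exact (mul_le_of_le_one_right (abs_nonneg _)
      (prod_le_one (fun l _ => abs_nonneg _) fun l _ => hψ l _)).trans
        (hK _ (abs_overlaps_le σ))) z.1
  have hK0 : 0 ≤ K := (abs_nonneg _).trans (hK (fun _ _ => 0) fun _ _ => by simp)
  have hu : ∀ z : S.Ω × (Fin k → Fin N → ℝ),
      1 - Z z / wC A k = ∑ σ, S.w z.1 σ * hw f A (fld z.2 σ) := fun z => by
    simp only [hZ, hw, mul_sub, mul_one, sum_sub_distrib, hS.sum_one, sum_div, mul_div_assoc]
  have hPm : Measurable P := measurable_mix hS hψc _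
  have hZm' : Measurable Z := measurable_wsum hS (continuous_wt hf)
  have hterm : ∀ d, ∫ z, P z * (1 - Z z / wC A k) ^ d ∂jointLaw S k =
      S.repMean (n + 1 + d) (fun σ => F (restrM (overlaps σ)) * Φ d (overlaps σ)) := fun d => by
    rw [← integral_mix hS hN (hχc d) (hχb d) (fun σ => F (restrM (overlaps σ))) (hΦ d)]
    refine integral_congr_ae (Eventually.of_forall fun z => ?_)
    beta_reduce
    rw [hu, hP]
    beta_reduce
    rw [sum_mul_pow]
    refine sum_congr rfl fun σ _ => ?_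
    rw [Fin.prod_univ_add (f := fun l =>
      Fin.append (Parisi.Cont.psi f B o) (fun _ : Fin d => hw f A) l (fld z.2 (σ l)))]
    simp only [Fin.append_left, Fin.append_right]
    rw [← mul_assoc (F (restrM _))]
    rfl
  have hi0 : Integrable (fun z => P z * (Z z)⁻¹ ^ (n + 1))
      (S.law.prod (Measure.pi fun _ => gam (Fin N))) :=
    integrable_bdd (hPm.mul (hZm'.inv.pow_const _)) (K := K * wC A k ^ (n + 1)) fun z => by
      have hp : 0 < Z z := (inv_pos.2 (Real.exp_pos _)).trans_le (hZm z).1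
      show |P z * (Z z)⁻¹ ^ (n + 1)| ≤ _
      rw [abs_mul, abs_of_pos (pow_pos (inv_pos.2 hp) _)]
      refine mul_le_mul (hPb z) (pow_le_pow_left₀ (inv_pos.2 hp).le ?_ _)
        (pow_pos (inv_pos.2 hp) _).le hK0
      exact (inv_anti₀ (inv_pos.2 (Real.exp_pos _)) (hZm z).1).trans_eq (inv_inv _)
  have hpat : S.patMean f F o = B ^ (n + 1) * ∫ z, P z * (Z z)⁻¹ ^ (n + 1) ∂jointLaw S k := by
    rw [jointLaw, integral_prod _ hi0,
      ← integral_const_mul]
    refine integral_congr_ae (Eventually.of_forall fun ω => ?_)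
    beta_reduce
    rw [← integral_const_mul]
    refine integral_congr_ae (Eventually.of_forall fun g => ?_)
    simp only [hP, hZ, div_eq_mul_inv, ← mul_assoc, mul_sum, sum_mul, inv_pow]
    refine sum_congr rfl fun σ _ => ?_
    rw [prod_psi B o fun j l => fld g (σ l) j, prod_mul_distrib, div_eq_mul_inv]
    simp only [fld, wt]
    field_simp
  rw [hpat, ← mul_sub, abs_mul, abs_of_pos (pow_pos hB _)]
  refine mul_le_mul_of_nonneg_left ?_ (pow_pos hB _).le
  have hi : ∀ d, Integrable (fun z => coefW (wC A k) n d * (P z * (1 - Z z / wC A k) ^ d))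
      (S.law.prod (Measure.pi fun _ => gam (Fin N))) := fun d =>
    (integrable_bdd (hPm.mul ((measurable_const.sub (hZm'.div_const _)).pow_const d)) (K := K)
      fun z => by
        obtain ⟨h1, h2⟩ := one_sub_div_mem hC (hZm z).1 (hZm z).2
        show |P z * (1 - Z z / wC A k) ^ d| ≤ K
        rw [abs_mul, abs_pow, abs_of_nonneg h1]
        exact (mul_le_of_le_one_right (abs_nonneg _)
          (pow_le_one₀ h1 (h2.trans (gq_mem hC).2.le))).trans (hPb z)).const_mul _
  simp only [← hterm, ← integral_const_mul, jointLaw]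
  rw [← integral_finsetSum _ fun d _ => hi d, ← integral_sub hi0 (integrable_finsetSum _ fun d _ => hi d),
    ← Real.norm_eq_abs]
  refine (norm_integral_le_of_norm_le_const (C := K * tailW (wC A k) n D)
    (Eventually.of_forall fun z => ?_)).trans_eq (by rw [probReal_univ, mul_one])
  obtain ⟨s1, s2⟩ := series_bound hC n D (hZm z).1 (hZm z).2
  simp only [mul_left_comm _ (P z), ← mul_sum, ← mul_sub, Real.norm_eq_abs, abs_mul,
    abs_of_nonneg s1]
  exact mul_le_mul (hPb z) s2 s1 hK0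

/-- The mean log-weight of fresh patterns as a series of replica means. -/
theorem abs_logMean_sub_series_le (hN : 0 < N) (hf : Smooth f A)
    {Φ : ∀ d, (Fin (d + 1) → Fin (d + 1) → ℝ) → ℝ}
    (hΦ : ∀ d (v : Fin (d + 1) → Fin N → ℝ), (∀ a, dot (v a) (v a) ≤ 1) →
      Φ d (gramOf v) = expVal (prodΘ fun _ : Fin (d + 1) => (hw f A : (Fin k → ℝ) → ℝ)) v)
    (D : ℕ) :
    |S.logMean f k - (Real.log (wC A k) -
        ∑ d ∈ range D, S.repMean (d + 1) (fun σ => Φ d (overlaps σ)) / (d + 1))| ≤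
      gq (wC A k) ^ (D + 1) / (1 - gq (wC A k)) := by
  have := hS.prob
  have hC := one_le_wC hf k
  obtain ⟨hq0, hq1⟩ := gq_mem hC
  set Z : S.Ω × (Fin k → Fin N → ℝ) → ℝ := fun z => ∑ σ, S.w z.1 σ * wt f (fld z.2 σ) with hZ
  have hZm : ∀ z, (wC A k)⁻¹ ≤ Z z ∧ Z z ≤ wC A k := fun z =>
    w_sum_bound hS (fun σ => wt_mem hf (fld z.2 σ)) z.1
  have hu : ∀ z : S.Ω × (Fin k → Fin N → ℝ),
      1 - Z z / wC A k = ∑ σ, S.w z.1 σ * hw f A (fld z.2 σ) := fun z => by
    simp only [hZ, hw, mul_sub, mul_one, sum_sub_distrib, hS.sum_one, sum_div, mul_div_assoc]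
  have hZm' : Measurable Z := measurable_wsum hS (continuous_wt hf)
  have hterm : ∀ d : ℕ, ∫ z, (1 - Z z / wC A k) ^ (d + 1) ∂jointLaw S k =
      S.repMean (d + 1) (fun σ => Φ d (overlaps σ)) := fun d => by
    have h := integral_mix hS hN (fun _ : Fin (d + 1) => continuous_hw (k := k) hf)
      (fun _ => abs_hw_le hf) (fun _ => 1) (hΦ d)
    simp only [one_mul] at h
    rw [← h]
    refine integral_congr_ae (Eventually.of_forall fun z => ?_)
    beta_reduce
    rw [hu, Fintype.sum_pow]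
    simp only [prod_mul_distrib]
  have hi : Integrable (fun z => Real.log (Z z)) (S.law.prod (Measure.pi fun _ => gam (Fin N))) :=
    integrable_bdd hZm'.log (K := |Real.log (wC A k)|) fun z =>
      Vale.Agent.P168.Cascade.abs_log_le (Real.exp_pos _) (hZm z).1 (hZm z).2
  have hid : ∀ d : ℕ, Integrable (fun z => (1 - Z z / wC A k) ^ (d + 1) / ((d : ℝ) + 1))
      (S.law.prod (Measure.pi fun _ => gam (Fin N))) := fun d =>
    (integrable_bdd ((measurable_const.sub (hZm'.div_const _)).pow_const (d + 1)) (K := 1)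
      fun z => by
        obtain ⟨h1, h2⟩ := one_sub_div_mem hC (hZm z).1 (hZm z).2
        show |(1 - Z z / wC A k) ^ (d + 1)| ≤ 1
        rw [abs_pow, abs_of_nonneg h1]
        exact pow_le_one₀ h1 (h2.trans hq1.le)).div_const _
  have hlog : S.logMean f k = ∫ z, Real.log (Z z) ∂jointLaw S k := by
    rw [jointLaw, integral_prod _ hi]
    rfl
  simp only [hlog, ← hterm, jointLaw, ← integral_div]
  rw [← integral_finsetSum _ fun d _ => hid d]
  have hc : Integrable (fun _ => Real.log (wC A k))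
      (S.law.prod (Measure.pi fun _ : Fin k => gam (Fin N))) := integrable_const _
  have e : Real.log (wC A k) = ∫ _z, Real.log (wC A k)
      ∂(S.law.prod (Measure.pi fun _ : Fin k => gam (Fin N))) := by simp
  rw [e, ← integral_sub hc (integrable_finsetSum _ fun d _ => hid d),
    ← integral_sub hi (g := fun z => Real.log (wC A k) - ∑ d ∈ range D,
      (1 - Z z / wC A k) ^ (d + 1) / ((d : ℝ) + 1))
      (hc.sub (integrable_finsetSum _ fun d _ => hid d)), ← Real.norm_eq_abs]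
  refine (norm_integral_le_of_norm_le_const (C := gq (wC A k) ^ (D + 1) / (1 - gq (wC A k)))
    (Eventually.of_forall fun z => ?_)).trans_eq (by rw [probReal_univ, mul_one])
  obtain ⟨hu0, hu1⟩ := one_sub_div_mem hC (hZm z).1 (hZm z).2
  have hz : 0 < Z z := (inv_pos.2 (Real.exp_pos _)).trans_le (hZm z).1
  rw [Real.norm_eq_abs]
  set u := 1 - Z z / wC A k with hu'
  have habs : |u| = u := abs_of_nonneg hu0
  have hl : Real.log (Z z) = Real.log (wC A k) + Real.log (1 - u) := by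
    rw [hu', sub_sub_cancel, Real.log_div hz.ne' (show wC A k ≠ 0 from (Real.exp_pos _).ne')]
    ring
  rw [hl]
  refine le_trans (le_of_eq ?_)
    ((Real.abs_log_sub_add_sum_range_le (x := u) (by rw [habs]; linarith) D).trans ?_)
  · congr 1
    ring
  · rw [habs]
    exact div_le_div₀ (pow_nonneg hq0 _) (pow_le_pow_left₀ hu0 hu1 _) (by linarith) (by linarith)

end Vale.Agent.P157.Parisi.Sphere.Cont
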